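import Vale.Agent.P311.Fourier

/-! Fourier analysis on the cube for the product measure of bias `t`, and the influence
inequality `(1 - t^2) |q'(t)| ≤ d (1 - q(t)^2)` for Boolean functions of degree at most `d`. -/

namespace Vale.Agent.P047

open Finset Vale.Agent.P311

variable {n : ℕ}

/-- unnormalised weight of the product measure of bias `t` -/
def wt (t : ℝ) (x : Fin n → Bool) : ℝ := ∏ i, (1 + t * sg x i)

/-- biased (unnormalised) characters -/
def phi (t : ℝ) (S : Finset (Fin n)) (x : Fin n → Bool) : ℝ := ∏ i ∈ S, (sg x i - t)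

lemma sum_prod (F : Fin n → Bool → ℝ) :
    ∑ x : Fin n → Bool, ∏ i, F i (x i) = ∏ i, (F i false + F i true) := by
  have h := Finset.prod_univ_sum (fun _ : Fin n => (univ : Finset Bool)) F
  rw [Fintype.piFinset_univ] at h
  rw [← h]
  refine Finset.prod_congr rfl (fun i _ => ?_)
  simp [add_comm]

lemma wt_nonneg (t : ℝ) (ht : |t| ≤ 1) (x : Fin n → Bool) : 0 ≤ wt t x := by
  refine Finset.prod_nonneg (fun i _ => ?_)
  have h := abs_le.1 ht
  unfold sg
  split_ifs <;> linarith [h.1, h.2]

lemma wt_pos (t : ℝ) (ht : |t| < 1) (x : Fin n → Bool) : 0 < wt t x := by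
  refine Finset.prod_pos (fun i _ => ?_)
  have h := abs_lt.1 ht
  unfold sg
  split_ifs <;> linarith [h.1, h.2]

lemma sum_wt (t : ℝ) : ∑ x : Fin n → Bool, wt t x = 2 ^ n := by
  have h := sum_prod (n := n) (fun _ b => 1 + t * (if b then (-1 : ℝ) else 1))
  have h2 : ∑ x : Fin n → Bool, wt t x
      = ∑ x : Fin n → Bool, ∏ i, (1 + t * (if x i then (-1 : ℝ) else 1)) := rfl
  rw [h2, h]
  simp only [Bool.false_eq_true, if_false, if_true]
  rw [Finset.prod_const, Finset.card_univ, Fintype.card_fin]
  congr 1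
  ring

lemma ortho (t : ℝ) (S T : Finset (Fin n)) :
    ∑ x, wt t x * (phi t S x * phi t T x)
      = if S = T then 2 ^ n * (1 - t ^ 2) ^ S.card else 0 := by
  set G : Fin n → Bool → ℝ := fun i b =>
    (1 + t * (if b then (-1 : ℝ) else 1)) * ((if i ∈ S then (if b then (-1 : ℝ) else 1) - t else 1)
      * (if i ∈ T then (if b then (-1 : ℝ) else 1) - t else 1)) with hG
  have h1 : ∀ x : Fin n → Bool, wt t x * (phi t S x * phi t T x) = ∏ i, G i (x i) := by
    intro x
    have e1 : phi t S x = ∏ i, (if i ∈ S then sg x i - t else 1) := by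
      unfold phi
      rw [Finset.prod_ite_mem, Finset.univ_inter]
    have e2 : phi t T x = ∏ i, (if i ∈ T then sg x i - t else 1) := by
      unfold phi
      rw [Finset.prod_ite_mem, Finset.univ_inter]
    rw [e1, e2, wt, ← Finset.prod_mul_distrib, ← Finset.prod_mul_distrib]
    rfl
  simp only [h1]
  rw [sum_prod]
  split_ifs with h
  · subst h
    have h2 : ∀ i : Fin n, G i false + G i true = 2 * (if i ∈ S then (1 - t ^ 2) else 1) := by
      intro i
      simp only [hG]
      by_cases hi : i ∈ S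
      · simp only [hi, if_true, Bool.false_eq_true, if_false]
        ring
      · simp only [hi, if_false, Bool.false_eq_true, if_true]
        ring
    simp only [h2]
    rw [Finset.prod_mul_distrib, Finset.prod_const, Finset.card_univ, Fintype.card_fin,
      Finset.prod_ite_mem, Finset.univ_inter, Finset.prod_const]
  · have : ∃ i, ¬ (i ∈ S ↔ i ∈ T) := by
      by_contra hcon
      push Not at hcon
      exact h (Finset.ext hcon)
    obtain ⟨i, hi⟩ := this
    apply Finset.prod_eq_zero (Finset.mem_univ i)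
    simp only [hG]
    by_cases h1 : i ∈ S
    · have h2 : i ∉ T := fun h2 => hi ⟨fun _ => h2, fun _ => h1⟩
      simp only [h1, h2, if_true, if_false, Bool.false_eq_true]
      ring
    · have h2 : i ∈ T := by
        by_contra h2
        exact hi ⟨fun h => absurd h h1, fun h => absurd h h2⟩
      simp only [h1, h2, if_true, if_false, Bool.false_eq_true]
      ring

/-- Parseval for the biased measure -/
lemma parseval_b (t : ℝ) (a : Finset (Fin n) → ℝ) :
    ∑ x, wt t x * (∑ S, a S * phi t S x) ^ 2 = 2 ^ n * ∑ S, a S ^ 2 * (1 - t ^ 2) ^ S.card := by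
  have h1 : ∀ x : Fin n → Bool, wt t x * (∑ S, a S * phi t S x) ^ 2
      = ∑ S, ∑ T, a S * a T * (wt t x * (phi t S x * phi t T x)) := by
    intro x
    rw [sq, Finset.sum_mul_sum, Finset.mul_sum]
    refine Finset.sum_congr rfl (fun S _ => ?_)
    rw [Finset.mul_sum]
    refine Finset.sum_congr rfl (fun T _ => ?_)
    ring
  simp only [h1]
  rw [Finset.sum_comm, Finset.mul_sum]
  refine Finset.sum_congr rfl (fun S _ => ?_)
  rw [Finset.sum_comm]
  have h2 : ∀ T : Finset (Fin n), ∑ x, a S * a T * (wt t x * (phi t S x * phi t T x))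
      = a S * a T * (if S = T then 2 ^ n * (1 - t ^ 2) ^ S.card else 0) := by
    intro T
    rw [← Finset.mul_sum, ortho]
  simp only [h2]
  rw [Finset.sum_eq_single S]
  · rw [if_pos rfl]; ring
  · intro T _ hT; rw [if_neg (Ne.symm hT)]; ring
  · intro h; exact absurd (Finset.mem_univ S) h

/-- the mean for the biased measure -/
lemma mean_b (t : ℝ) (a : Finset (Fin n) → ℝ) :
    ∑ x, wt t x * (∑ S, a S * phi t S x) = 2 ^ n * a ∅ := by
  have h1 : ∀ x : Fin n → Bool, wt t x * (∑ S, a S * phi t S x)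
      = ∑ S, a S * (wt t x * (phi t S x * phi t ∅ x)) := by
    intro x
    rw [Finset.mul_sum]
    refine Finset.sum_congr rfl (fun S _ => ?_)
    simp only [phi, Finset.prod_empty]
    ring
  simp only [h1]
  rw [Finset.sum_comm]
  have h2 : ∀ S : Finset (Fin n), ∑ x, a S * (wt t x * (phi t S x * phi t ∅ x))
      = a S * (if S = ∅ then 2 ^ n * (1 - t ^ 2) ^ S.card else 0) := by
    intro S
    rw [← Finset.mul_sum, ortho]
  simp only [h2]
  rw [Finset.sum_eq_single ∅]
  · rw [if_pos rfl]; simp; ring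
  · intro T _ hT; rw [if_neg hT]; ring
  · intro h; exact absurd (Finset.mem_univ _) h

/-- coefficients of `f` in the biased basis -/
noncomputable def cf (f : (Fin n → Bool) → ℝ) (t : ℝ) (S : Finset (Fin n)) : ℝ :=
  ∑ T, if S ⊆ T then fhat f T * t ^ (T \ S).card else 0

lemma chi_expand (t : ℝ) (T : Finset (Fin n)) (x : Fin n → Bool) :
    chi T x = ∑ S, if S ⊆ T then phi t S x * t ^ (T \ S).card else 0 := by
  have h1 : chi T x = ∏ i ∈ T, ((sg x i - t) + t) := by
    unfold chi
    refine Finset.prod_congr rfl (fun i _ => ?_)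
    ring
  rw [h1, Finset.prod_add, ← Finset.sum_filter]
  have h2 : T.powerset = univ.filter (fun S => S ⊆ T) := by
    ext S
    simp [Finset.mem_powerset]
  rw [h2]
  refine Finset.sum_congr rfl (fun S _ => ?_)
  rw [Finset.prod_const]
  rfl

lemma expand_b (f : (Fin n → Bool) → ℝ) (t : ℝ) (x : Fin n → Bool) :
    f x = ∑ S, cf f t S * phi t S x := by
  rw [inversion f x]
  have h1 : ∀ T : Finset (Fin n), fhat f T * chi T x
      = ∑ S, (if S ⊆ T then fhat f T * t ^ (T \ S).card else 0) * phi t S x := by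
    intro T
    rw [chi_expand t T x, Finset.mul_sum]
    refine Finset.sum_congr rfl (fun S _ => ?_)
    split_ifs <;> ring
  simp only [h1]
  rw [Finset.sum_comm]
  refine Finset.sum_congr rfl (fun S _ => ?_)
  rw [cf, Finset.sum_mul]

lemma cf_eq_zero (f : (Fin n → Bool) → ℝ) (t : ℝ) (d : ℕ)
    (hdeg : ∀ S : Finset (Fin n), d < S.card → fhat f S = 0) (S : Finset (Fin n))
    (hS : d < S.card) : cf f t S = 0 := by
  unfold cf
  refine Finset.sum_eq_zero (fun T _ => ?_)
  split_ifs with h
  · rw [hdeg T (lt_of_lt_of_le hS (Finset.card_le_card h))]; ring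
  · rfl

lemma cf_empty (f : (Fin n → Bool) → ℝ) (t : ℝ) :
    cf f t ∅ = ∑ T, t ^ T.card * fhat f T := by
  unfold cf
  refine Finset.sum_congr rfl (fun T _ => ?_)
  simp
  ring

lemma sum_cf_singleton (f : (Fin n → Bool) → ℝ) (t : ℝ) :
    ∑ i, cf f t {i} = ∑ T : Finset (Fin n), (T.card : ℝ) * t ^ (T.card - 1) * fhat f T := by
  unfold cf
  rw [Finset.sum_comm]
  refine Finset.sum_congr rfl (fun T _ => ?_)
  have h1 : ∀ i : Fin n, (if ({i} : Finset (Fin n)) ⊆ T then fhat f T * t ^ (T \ {i}).card else 0)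
      = if i ∈ T then fhat f T * t ^ (T.card - 1) else 0 := by
    intro i
    by_cases hi : i ∈ T
    · rw [if_pos (Finset.singleton_subset_iff.2 hi), if_pos hi, Finset.sdiff_singleton_eq_erase,
        Finset.card_erase_of_mem hi]
    · rw [if_neg hi, if_neg (fun h => hi (Finset.singleton_subset_iff.1 h))]
  simp only [h1]
  rw [Finset.sum_ite_mem, Finset.univ_inter, Finset.sum_const, nsmul_eq_mul]
  ring

lemma sum_mem_insert (i : Fin n) (g : Finset (Fin n) → ℝ) :
    ∑ S, (if i ∈ S then g S else 0) = ∑ S, (if i ∉ S then g (insert i S) else 0) := by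
  rw [← Finset.sum_filter, ← Finset.sum_filter]
  refine Finset.sum_nbij' (fun S => S.erase i) (fun S => insert i S) ?_ ?_ ?_ ?_ ?_
  · intro S hS
    simp
  · intro S hS
    simp
  · intro S hS
    simp only [Finset.mem_filter, Finset.mem_univ, true_and] at hS
    exact Finset.insert_erase hS
  · intro S hS
    simp only [Finset.mem_filter, Finset.mem_univ, true_and] at hS
    exact Finset.erase_insert hS
  · intro S hS
    simp only [Finset.mem_filter, Finset.mem_univ, true_and] at hS
    rw [Finset.insert_erase hS]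

lemma phi_sub_flp (t : ℝ) (S : Finset (Fin n)) (i : Fin n) (x : Fin n → Bool) :
    phi t S x - phi t S (flp i x)
      = if i ∈ S then 2 * sg x i * phi t (S.erase i) x else 0 := by
  split_ifs with h
  · have e1 : phi t S x = (sg x i - t) * phi t (S.erase i) x := by
      unfold phi
      rw [Finset.mul_prod_erase S (fun j => sg x j - t) h]
    have e2 : phi t S (flp i x) = (- sg x i - t) * phi t (S.erase i) x := by
      unfold phi
      rw [← Finset.mul_prod_erase S (fun j => sg (flp i x) j - t) h, sg_flp_self]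
      congr 1
      refine Finset.prod_congr rfl (fun j hj => ?_)
      rw [sg_flp_ne i j (Finset.ne_of_mem_erase hj)]
    rw [e1, e2]; ring
  · have : phi t S (flp i x) = phi t S x := by
      unfold phi
      refine Finset.prod_congr rfl (fun j hj => ?_)
      rw [sg_flp_ne i j (fun hji => h (hji ▸ hj))]
    rw [this, sub_self]

/-- discrete derivative -/
noncomputable def Df (f : (Fin n → Bool) → ℝ) (i : Fin n) (x : Fin n → Bool) : ℝ :=
  sg x i * (f x - f (flp i x)) / 2

lemma Df_expand (f : (Fin n → Bool) → ℝ) (t : ℝ) (i : Fin n) (x : Fin n → Bool) :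
    Df f i x = ∑ S, (if i ∉ S then cf f t (insert i S) else 0) * phi t S x := by
  have h1 : f x - f (flp i x)
      = ∑ S, (if i ∈ S then 2 * sg x i * (cf f t S * phi t (S.erase i) x) else 0) := by
    rw [expand_b f t x, expand_b f t (flp i x), ← Finset.sum_sub_distrib]
    refine Finset.sum_congr rfl (fun S _ => ?_)
    rw [← mul_sub, phi_sub_flp]
    split_ifs <;> ring
  rw [Df, h1, sum_mem_insert, Finset.mul_sum, Finset.sum_div]
  refine Finset.sum_congr rfl (fun S _ => ?_)
  by_cases h : i ∈ S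
  · simp [h]
  · rw [if_pos h, if_pos h, Finset.erase_insert h]
    have := sg_mul_self x i
    linear_combination (cf f t (insert i S) * phi t S x) * this

lemma Df_abs_le (f : (Fin n → Bool) → ℝ) (hf : ∀ x, f x = 1 ∨ f x = -1) (i : Fin n)
    (x : Fin n → Bool) : |Df f i x| ≤ (Df f i x) ^ 2 := by
  unfold Df
  have hs : sg x i = 1 ∨ sg x i = -1 := by
    unfold sg
    split_ifs
    · exact Or.inr rfl
    · exact Or.inl rfl
  rcases hs with h0 | h0 <;> rcases hf x with h1 | h1 <;> rcases hf (flp i x) with h2 | h2 <;>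
    rw [h0, h1, h2] <;> norm_num

lemma influence_ineq (f : (Fin n → Bool) → ℝ) (hf : ∀ x, f x = 1 ∨ f x = -1) (d : ℕ)
    (hdeg : ∀ S : Finset (Fin n), d < S.card → fhat f S = 0) (t : ℝ) (ht : |t| ≤ 1) :
    (1 - t ^ 2) * |∑ i, cf f t {i}| ≤ d * (1 - (cf f t ∅) ^ 2) := by
  have hσ : 0 ≤ 1 - t ^ 2 := by
    have := abs_le.1 ht
    nlinarith [this.1, this.2]
  have h2n : (0 : ℝ) < 2 ^ n := by positivity
  set h : Finset (Fin n) → ℝ := fun S => cf f t S ^ 2 * (1 - t ^ 2) ^ S.card with hh
  have hh0 : ∀ S, 0 ≤ h S := fun S => mul_nonneg (sq_nonneg _) (pow_nonneg hσ _)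
  -- Parseval
  have hP : ∑ S, h S = 1 := by
    have h1 := parseval_b t (cf f t)
    have h2 : ∀ x : Fin n → Bool, wt t x * (∑ S, cf f t S * phi t S x) ^ 2 = wt t x := by
      intro x
      rw [← expand_b f t x]
      rcases hf x with h | h <;> rw [h] <;> ring
    simp only [h2] at h1
    rw [sum_wt] at h1
    have h3 : (2 : ℝ) ^ n * 1 = 2 ^ n * ∑ S, h S := by rw [mul_one]; exact h1
    exact (mul_left_cancel₀ h2n.ne' h3).symm
  -- each coordinate
  have hI : ∀ i : Fin n, (1 - t ^ 2) * |cf f t {i}| ≤ ∑ S, (if i ∈ S then h S else 0) := by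
    intro i
    set a : Finset (Fin n) → ℝ := fun S => if i ∉ S then cf f t (insert i S) else 0 with ha
    have h1 := mean_b t a
    have h2 := parseval_b t a
    have e1 : ∀ x : Fin n → Bool, ∑ S, a S * phi t S x = Df f i x := fun x =>
      (Df_expand f t i x).symm
    simp only [e1] at h1 h2
    have ha0 : a ∅ = cf f t {i} := by
      simp [ha]
    rw [ha0] at h1
    have h3 : |∑ x, wt t x * Df f i x| ≤ ∑ x, wt t x * (Df f i x) ^ 2 := by
      refine (Finset.abs_sum_le_sum_abs _ _).trans ?_
      refine Finset.sum_le_sum (fun x _ => ?_)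
      rw [abs_mul, abs_of_nonneg (wt_nonneg t ht x)]
      exact mul_le_mul_of_nonneg_left (Df_abs_le f hf i x) (wt_nonneg t ht x)
    rw [h1, h2, abs_mul, abs_of_pos h2n] at h3
    have h4 : |cf f t {i}| ≤ ∑ S, a S ^ 2 * (1 - t ^ 2) ^ S.card :=
      le_of_mul_le_mul_left h3 h2n
    have h5 : (1 - t ^ 2) * ∑ S, a S ^ 2 * (1 - t ^ 2) ^ S.card
        = ∑ S, (if i ∈ S then h S else 0) := by
      rw [sum_mem_insert, Finset.mul_sum]
      refine Finset.sum_congr rfl (fun S _ => ?_)
      simp only [ha, hh]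
      by_cases hi : i ∈ S
      · simp [hi]
      · rw [if_pos hi, if_pos hi, Finset.card_insert_of_notMem hi]
        ring
    rw [← h5]
    exact mul_le_mul_of_nonneg_left h4 hσ
  have hC : ∑ i, ∑ S, (if i ∈ S then h S else 0) = ∑ S : Finset (Fin n), (S.card : ℝ) * h S := by
    rw [Finset.sum_comm]
    refine Finset.sum_congr rfl (fun S _ => ?_)
    rw [Finset.sum_ite_mem, Finset.univ_inter, Finset.sum_const, nsmul_eq_mul]
  have hD : ∑ S : Finset (Fin n), (S.card : ℝ) * h S
      ≤ ∑ S : Finset (Fin n), (d : ℝ) * (h S - if S = ∅ then h ∅ else 0) := by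
    refine Finset.sum_le_sum (fun S _ => ?_)
    by_cases hS : S = ∅
    · subst hS
      simp
    · rw [if_neg hS, sub_zero]
      by_cases hc : d < S.card
      · have : h S = 0 := by
          simp only [hh]
          rw [cf_eq_zero f t d hdeg S hc]
          ring
        rw [this]; simp
      · have : (S.card : ℝ) ≤ d := by exact_mod_cast not_lt.1 hc
        exact mul_le_mul_of_nonneg_right this (hh0 S)
  have hE : ∑ S : Finset (Fin n), (d : ℝ) * (h S - if S = ∅ then h ∅ else 0)
      = d * (1 - (cf f t ∅) ^ 2) := by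
    rw [← Finset.mul_sum, Finset.sum_sub_distrib, hP, Finset.sum_ite_eq' univ ∅]
    simp [hh]
  calc (1 - t ^ 2) * |∑ i, cf f t {i}| ≤ (1 - t ^ 2) * ∑ i, |cf f t {i}| :=
        mul_le_mul_of_nonneg_left (Finset.abs_sum_le_sum_abs _ _) hσ
    _ = ∑ i, (1 - t ^ 2) * |cf f t {i}| := Finset.mul_sum _ _ _
    _ ≤ ∑ i, ∑ S, (if i ∈ S then h S else 0) := Finset.sum_le_sum (fun i _ => hI i)
    _ = ∑ S : Finset (Fin n), (S.card : ℝ) * h S := hC
    _ ≤ _ := hD
    _ = _ := hE

end Vale.Agent.P047
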