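import Mathlib

/-! A refinement of Markov's endpoint inequality that records the value at the first interior
Chebyshev node. The first lemmas repeat (private) lemmas of Mathlib's file on extremal properties
of Chebyshev polynomials. -/

namespace Vale.Agent.P047

open Polynomial Real Polynomial.Chebyshev

noncomputable def lcC (n i : ℕ) : ℝ :=
  (∏ j ∈ (Finset.range (n + 1)).erase i, (node n i - node n j))⁻¹

theorem negOnePow_mul_lcC_pos {n i : ℕ} (hi : i ≤ n) :
    0 < (-1) ^ i * lcC n i := by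
  have := inv_pos_of_pos <| zero_lt_prod_node_sub_node hi
  rwa [mul_inv, ← inv_pow, inv_neg_one] at this

noncomputable def idC (n k : ℕ) (x : ℝ) (i : ℕ) : ℝ :=
    k.factorial * (∏ j ∈ (Finset.range (n + 1)).erase i, ((node n i) - (node n j)))⁻¹ *
    ∑ t ∈ ((Finset.range (n + 1)).erase i).powersetCard (n - k), ∏ a ∈ t, (x - node n a)

theorem sumNodes_eq_eval_id {n k : ℕ} (hk : k ≤ n) (x : ℝ)
    {P : ℝ[X]} (hP : P.degree ≤ n) :
    sumNodes n (idC n k x) P = (derivative^[k] P).eval x := by
  simp_rw [sumNodes, idC]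
  have h₁ : P.degree < (Finset.range (n + 1)).card := by
    rw [Finset.card_range]; grw [hP]; norm_cast; simp
  convert!
    (Lagrange.eval_iterate_derivative_eq_sum (strictAntiOn_node n).injOn h₁
        (show k < _ by simp [hk]) x).symm
  rw [Finset.mul_sum]
  grind [Nat.range_succ_eq_Iic, Nat.card_Iic]

theorem negOnePow_mul_idC_nonneg
    {n k i : ℕ} (hi : i ≤ n) {x : ℝ} (hx : 1 ≤ x) :
    0 ≤ (-1) ^ i * idC n k x i := by
  rw [idC, ← mul_assoc]
  refine mul_nonneg ?_ (Finset.sum_nonneg' ?_)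
  · rw [← mul_assoc, mul_comm (a := (-1) ^ i), mul_assoc]
    exact le_of_lt <| mul_pos (Nat.cast_pos.mpr <| Nat.factorial_pos k)
      (negOnePow_mul_lcC_pos hi)
  · exact fun t => Finset.prod_nonneg (fun a _ => by grind [show node n a ≤ 1 from cos_le_one _])

lemma node_two (n : ℕ) : node n 2 = 2 * (node n 1) ^ 2 - 1 := by
  unfold node
  rw [← Real.cos_two_mul]
  congr 1
  push_cast
  ring

lemma c1_bound (n : ℕ) (hn : 2 ≤ n) : (4 / 3) / (1 - node n 1) ≤ - idC n 1 1 1 := by
  have hy1 : node n 1 < 1 := by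
    rw [← node_eq_one (n := n)]
    exact node_lt (by omega) (by omega)
  have hlt : ∀ a ∈ Finset.Icc 2 n, node n a < node n 1 := by
    intro a ha
    rw [Finset.mem_Icc] at ha
    exact node_lt ha.2 (by omega)
  have hset : (Finset.range (n + 1)).erase 1 = insert 0 (Finset.Icc 2 n) := by
    ext a
    simp only [Finset.mem_erase, Finset.mem_range, Finset.mem_insert, Finset.mem_Icc]
    omega
  have h0 : (0 : ℕ) ∉ Finset.Icc 2 n := by simp
  have hset2 : Finset.Icc 2 n = insert 2 (Finset.Icc 3 n) := by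
    ext a
    simp only [Finset.mem_insert, Finset.mem_Icc]
    omega
  have h2 : (2 : ℕ) ∉ Finset.Icc 3 n := by simp
  set A1 := ∏ a ∈ Finset.Icc 2 n, (1 - node n a) with hA1
  set A2 := ∏ a ∈ Finset.Icc 2 n, (node n 1 - node n a) with hA2
  have hA2pos : 0 < A2 := Finset.prod_pos (fun a ha => sub_pos.2 (hlt a ha))
  have hA12 : (4 / 3) * A2 ≤ A1 := by
    rw [hA1, hA2, hset2, Finset.prod_insert h2, Finset.prod_insert h2, ← mul_assoc]
    have hsub : ∀ a ∈ Finset.Icc 3 n, a ∈ Finset.Icc 2 n := by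
      intro a ha
      rw [Finset.mem_Icc] at ha ⊢
      omega
    apply mul_le_mul
    · rw [node_two]
      nlinarith [hy1]
    · apply Finset.prod_le_prod
      · intro a ha
        exact (sub_pos.2 (hlt a (hsub a ha))).le
      · intro a ha
        linarith
    · exact Finset.prod_nonneg (fun a ha => (sub_pos.2 (hlt a (hsub a ha))).le)
    · have := hlt 2 (by rw [Finset.mem_Icc]; omega)
      linarith
  have hsum : A1 ≤ ∑ t ∈ ((Finset.range (n + 1)).erase 1).powersetCard (n - 1),
      ∏ a ∈ t, (1 - node n a) := by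
    have hmem : Finset.Icc 2 n ∈ ((Finset.range (n + 1)).erase 1).powersetCard (n - 1) := by
      rw [Finset.mem_powersetCard, hset]
      refine ⟨Finset.subset_insert _ _, ?_⟩
      rw [Nat.card_Icc]
      omega
    exact Finset.single_le_sum
      (f := fun t => ∏ a ∈ t, (1 - node n a))
      (fun t _ => Finset.prod_nonneg (fun a _ => by
        have : node n a ≤ 1 := cos_le_one _
        linarith)) hmem
  have hprod : ∏ j ∈ (Finset.range (n + 1)).erase 1, (node n 1 - node n j)
      = -((1 - node n 1) * A2) := by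
    rw [hset, Finset.prod_insert h0, node_eq_one]
    ring
  unfold idC
  rw [hprod]
  set B1 := ∑ t ∈ ((Finset.range (n + 1)).erase 1).powersetCard (n - 1),
      ∏ a ∈ t, (1 - node n a) with hB1
  have hpos : 0 < (1 - node n 1) * A2 := mul_pos (by linarith) hA2pos
  have e : -(((Nat.factorial 1 : ℕ) : ℝ) * (-((1 - node n 1) * A2))⁻¹ * B1)
      = B1 / ((1 - node n 1) * A2) := by
    rw [Nat.factorial_one, inv_neg, Nat.cast_one]
    field_simp
  rw [e, div_le_div_iff₀ (by linarith) hpos]
  have h1y : 0 < 1 - node n 1 := by linarith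
  nlinarith [mul_le_mul_of_nonneg_left (hA12.trans hsum) h1y.le]

lemma sumNodes_add (n : ℕ) (hn : 1 ≤ n) (c : ℕ → ℝ) (κ : ℝ) (P : ℝ[X]) :
    sumNodes n (fun i => c i + if i = 1 then κ else 0) P
      = sumNodes n c P + κ * P.eval (node n 1) := by
  unfold sumNodes
  simp only [mul_add, Finset.sum_add_distrib]
  congr 1
  have : ∀ i : ℕ, P.eval (node n i) * (if i = 1 then κ else 0)
      = if i = 1 then κ * P.eval (node n 1) else 0 := by
    intro i
    split_ifs with h
    · subst h; ring
    · ring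
  simp only [this]
  rw [Finset.sum_ite_eq' (Finset.Iic n) 1, if_pos (Finset.mem_Iic.2 hn)]

lemma markov_refined (n : ℕ) (hn : 2 ≤ n) (P : ℝ[X]) (hdeg : P.degree ≤ n)
    (hb : ∀ x ∈ Set.Icc (-1 : ℝ) 1, |P.eval x| ≤ 1) :
    (derivative P).eval 1 + (4 / 3) / (1 - node n 1) * (1 + P.eval (node n 1)) ≤ (n : ℝ) ^ 2 := by
  set κ : ℝ := (4 / 3) / (1 - node n 1) with hκ
  have hsign : ∀ i ≤ n, 0 ≤ (-1) ^ i * (idC n 1 1 i + if i = 1 then κ else 0) := by
    intro i hi
    by_cases h1 : i = 1
    · subst h1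
      rw [if_pos rfl]
      have := c1_bound n hn
      rw [pow_one]
      linarith
    · rw [if_neg h1, add_zero]
      exact negOnePow_mul_idC_nonneg hi le_rfl
  have h := sumNodes_le_sumNodes_T hsign hb
  have hTdeg : (T ℝ (n : ℤ)).degree ≤ (n : WithBot ℕ) := by
    rw [degree_T]
    simp
  rw [sumNodes_add n (by omega), sumNodes_add n (by omega),
    sumNodes_eq_eval_id (by omega) 1 hdeg,
    sumNodes_eq_eval_id (by omega) 1 hTdeg,
    eval_T_real_node (Finset.mem_Iic.2 (by omega))] at h
  have hT : (derivative^[1] (T ℝ (n : ℤ))).eval 1 = (n : ℝ) ^ 2 := by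
    rw [Function.iterate_one, T_derivative_eq_U]
    simp only [eval_mul, U_eval_one]
    simp
    ring
  rw [hT, Function.iterate_one] at h
  linarith

end Vale.Agent.P047
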