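import Mathlib

/-! Numerical estimates for the first Chebyshev node. -/

namespace Vale.Agent.P047

lemma exp_bound : Real.exp (11 / 3) ≤ 40 := by
  have h1 : Real.exp (11 / 3) ^ 3 = Real.exp 1 ^ 11 := by
    rw [← Real.exp_nat_mul, ← Real.exp_nat_mul]
    norm_num
  have h2 : Real.exp 1 ^ 11 ≤ (2.7182818286 : ℝ) ^ 11 :=
    pow_le_pow_left₀ (Real.exp_pos 1).le Real.exp_one_lt_d9.le 11
  have h3 : (2.7182818286 : ℝ) ^ 11 ≤ 40 ^ 3 := by norm_num
  have h4 : Real.exp (11 / 3) ^ 3 ≤ 40 ^ 3 := by rw [h1]; exact h2.trans h3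
  exact (pow_le_pow_iff_left₀ (Real.exp_pos _).le (by norm_num) (by norm_num)).1 h4

/-- if `b - 1/b = 2x` with `b > 0`, `x ≥ 0`, then `b ≤ exp x` -/
lemma le_exp_of_sub_inv (b x : ℝ) (hb : 0 < b) (hx : 0 ≤ x) (h : b - 1 / b = 2 * x) :
    b ≤ Real.exp x := by
  by_contra hcon
  push Not at hcon
  have h1 : x ≤ Real.sinh x := Real.self_le_sinh_iff.2 hx
  rw [Real.sinh_eq] at h1
  have h2 : 1 / b < Real.exp (-x) := by
    rw [Real.exp_neg, ← one_div]
    exact one_div_lt_one_div_of_lt (Real.exp_pos x) hcon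
  linarith

/-- the ratio bound at the first node -/
lemma ratio_bound (d : ℕ) (hd : 3 ≤ d) :
    (1 + Real.sin (Real.pi / (2 * d))) ^ d ≤ 40 * (1 - Real.sin (Real.pi / (2 * d))) ^ d := by
  have hd' : (3 : ℝ) ≤ d := by exact_mod_cast hd
  have hpi1 := Real.pi_gt_d4
  have hpi2 := Real.pi_lt_d4
  set φ : ℝ := Real.pi / (2 * d) with hφ
  have hφ0 : 0 < φ := by positivity
  have hφd : 2 * d * φ = Real.pi := by
    rw [hφ]; field_simp
  have hφ6 : φ ≤ 0.5236 := by
    have : 6 * φ ≤ 2 * d * φ := by nlinarith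
    linarith
  set s := Real.sin φ with hs
  set c := Real.cos φ with hc
  have hsφ : s ≤ φ := Real.sin_le hφ0.le
  have hs0 : 0 < s := Real.sin_pos_of_pos_of_lt_pi hφ0 (by linarith)
  have hc1 : 0.8629 ≤ c := by
    have := Real.one_sub_sq_div_two_le_cos (x := φ)
    nlinarith
  have hc0 : 0 < c := by linarith
  have hsc : s ^ 2 + c ^ 2 = 1 := Real.sin_sq_add_cos_sq φ
  have hs1 : s < 1 := by nlinarith
  set b := (1 + s) / c with hb
  have hb0 : 0 < b := by positivity
  have hbinv : 1 / b = (1 - s) / c := by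
    rw [hb]
    field_simp
    nlinarith
  have hbx : b - 1 / b = 2 * (s / c) := by
    rw [hbinv, hb]
    field_simp
    ring
  have hbe : b ≤ Real.exp (s / c) := le_exp_of_sub_inv b (s / c) hb0 (by positivity) hbx
  have hb2 : 1 + s = b ^ 2 * (1 - s) := by
    rw [hb]
    field_simp
    nlinarith
  have hx : 2 * d * (s / c) ≤ 11 / 3 := by
    have h1 : 2 * d * (s / c) = (2 * d * s) / c := by ring
    rw [h1, div_le_iff₀ hc0]
    have h2 : 2 * d * s ≤ Real.pi := by
      rw [← hφd]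
      have : (0 : ℝ) ≤ 2 * d := by positivity
      exact mul_le_mul_of_nonneg_left hsφ this
    nlinarith
  have hpow : (b ^ 2) ^ d ≤ 40 := by
    calc (b ^ 2) ^ d ≤ (Real.exp (s / c) ^ 2) ^ d :=
          pow_le_pow_left₀ (by positivity) (pow_le_pow_left₀ hb0.le hbe 2) d
      _ = Real.exp (2 * d * (s / c)) := by
          rw [← pow_mul, ← Real.exp_nat_mul]
          push_cast
          ring_nf
      _ ≤ Real.exp (11 / 3) := Real.exp_le_exp.2 hx
      _ ≤ 40 := exp_bound
  rw [hb2, mul_pow]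
  exact mul_le_mul_of_nonneg_right hpow (pow_nonneg (by linarith) d)

end Vale.Agent.P047
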