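import Mathlib

/-! Integrating the differential inequality `(1 - t^2) |q'| ≤ d (1 - q^2)`. -/

namespace Vale.Agent.P047

open Polynomial

lemma ode_log (Q : ℝ[X]) (d : ℕ) (hQ : ∀ t : ℝ, |t| < 1 → |Q.eval t| < 1)
    (hineq : ∀ t : ℝ, |t| < 1 →
      (1 - t ^ 2) * |(derivative Q).eval t| ≤ d * (1 - (Q.eval t) ^ 2))
    (s : ℝ) (hs0 : 0 ≤ s) (hs : s < 1) :
    Real.log (1 + Q.eval s) - Real.log (1 - Q.eval s)
        - d * (Real.log (1 + s) - Real.log (1 - s))
      ≤ Real.log (1 + Q.eval (-s)) - Real.log (1 - Q.eval (-s))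
        - d * (Real.log (1 + -s) - Real.log (1 - -s)) := by
  set A : ℝ → ℝ := fun t => Real.log (1 + Q.eval t) - Real.log (1 - Q.eval t)
        - d * (Real.log (1 + t) - Real.log (1 - t)) with hA
  have hder : ∀ t : ℝ, |t| < 1 → HasDerivAt A
      ((derivative Q).eval t / (1 + Q.eval t) - (-(derivative Q).eval t) / (1 - Q.eval t)
        - d * (1 / (1 + t) - (-1) / (1 - t))) t := by
    intro t ht
    have h1 := abs_lt.1 (hQ t ht)
    have h2 := abs_lt.1 ht
    have hq := Q.hasDerivAt t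
    have a1 : HasDerivAt (fun x => 1 + Q.eval x) ((derivative Q).eval t) t := hq.const_add 1
    have a2 : HasDerivAt (fun x => 1 - Q.eval x) (-(derivative Q).eval t) t := hq.const_sub 1
    have a3 : HasDerivAt (fun x : ℝ => 1 + x) 1 t := (hasDerivAt_id t).const_add 1
    have a4 : HasDerivAt (fun x : ℝ => 1 - x) (-1) t := (hasDerivAt_id t).const_sub 1
    have b1 := a1.log (ne_of_gt (by linarith [h1.1]) : (1 + Q.eval t) ≠ 0)
    have b2 := a2.log (ne_of_gt (by linarith [h1.2]) : (1 - Q.eval t) ≠ 0)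
    have b3 := a3.log (ne_of_gt (by linarith [h2.1]) : (1 + t) ≠ 0)
    have b4 := a4.log (ne_of_gt (by linarith [h2.2]) : (1 - t) ≠ 0)
    exact (b1.sub b2).sub ((b3.sub b4).const_mul (d : ℝ))
  have hsub : ∀ t ∈ Set.Icc (-s) s, |t| < 1 := by
    intro t ht
    rw [abs_lt]
    constructor <;> linarith [ht.1, ht.2]
  have hanti : AntitoneOn A (Set.Icc (-s) s) := by
    apply antitoneOn_of_deriv_nonpos (convex_Icc _ _)
    · intro t ht
      exact (hder t (hsub t ht)).continuousAt.continuousWithinAt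
    · intro t ht
      rw [interior_Icc] at ht
      exact (hder t (hsub t ⟨ht.1.le, ht.2.le⟩)).differentiableAt.differentiableWithinAt
    · intro t ht
      rw [interior_Icc] at ht
      have ht' := hsub t ⟨ht.1.le, ht.2.le⟩
      rw [(hder t ht').deriv]
      have h1 := abs_lt.1 (hQ t ht')
      have h2 := abs_lt.1 ht'
      have hu : 0 < 1 + Q.eval t := by linarith [h1.1]
      have hv : 0 < 1 - Q.eval t := by linarith [h1.2]
      have ha : 0 < 1 + t := by linarith [h2.1]
      have hb : 0 < 1 - t := by linarith [h2.2]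
      have h3 := hineq t ht'
      have h4 : (1 - t ^ 2) * (derivative Q).eval t ≤ d * (1 - (Q.eval t) ^ 2) := by
        refine le_trans ?_ h3
        apply mul_le_mul_of_nonneg_left (le_abs_self _)
        nlinarith
      set q' := (derivative Q).eval t
      set q := Q.eval t
      have e1 : q' / (1 + q) - (-q') / (1 - q) - d * (1 / (1 + t) - (-1) / (1 - t))
          = 2 * ((1 - t ^ 2) * q' - d * (1 - q ^ 2)) / ((1 + q) * (1 - q) * ((1 + t) * (1 - t))) := by
        field_simp
        ring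
      rw [e1]
      apply div_nonpos_of_nonpos_of_nonneg
      · linarith
      · positivity
  have := hanti (Set.left_mem_Icc.2 (by linarith)) (Set.right_mem_Icc.2 (by linarith))
    (by linarith : -s ≤ s)
  exact this

lemma ode_alg (Q : ℝ[X]) (d : ℕ) (hQ : ∀ t : ℝ, |t| < 1 → |Q.eval t| < 1)
    (hineq : ∀ t : ℝ, |t| < 1 →
      (1 - t ^ 2) * |(derivative Q).eval t| ≤ d * (1 - (Q.eval t) ^ 2))
    (s : ℝ) (hs0 : 0 ≤ s) (hs : s < 1) :
    (1 + (Q.eval s - Q.eval (-s)) / 2) * (1 - s) ^ d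
      ≤ (1 - (Q.eval s - Q.eval (-s)) / 2) * (1 + s) ^ d := by
  have h := ode_log Q d hQ hineq s hs0 hs
  have hs1 : |s| < 1 := by rw [abs_lt]; constructor <;> linarith
  have hs2 : |-s| < 1 := by rw [abs_neg]; exact hs1
  have h1 := abs_lt.1 (hQ s hs1)
  have h2 := abs_lt.1 (hQ (-s) hs2)
  set α := Q.eval s
  set β := Q.eval (-s)
  have p1 : 0 < 1 + α := by linarith [h1.1]
  have p2 : 0 < 1 - α := by linarith [h1.2]
  have p3 : 0 < 1 + β := by linarith [h2.1]
  have p4 : 0 < 1 - β := by linarith [h2.2]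
  have p5 : 0 < 1 + s := by linarith
  have p6 : 0 < 1 - s := by linarith
  set X := (1 - s) ^ d with hX
  set Y := (1 + s) ^ d with hY
  have hX0 : 0 < X := pow_pos p6 d
  have hY0 : 0 < Y := pow_pos p5 d
  have hXY : X ≤ Y := pow_le_pow_left₀ p6.le (by linarith) d
  have e1 : (1 : ℝ) + -s = 1 - s := by ring
  have e2 : (1 : ℝ) - -s = 1 + s := by ring
  rw [e1, e2] at h
  have hlog : Real.log ((1 + α) * (1 - β) * (X * X)) ≤ Real.log ((1 - α) * (1 + β) * (Y * Y)) := by
    rw [Real.log_mul (by positivity) (by positivity), Real.log_mul p1.ne' p4.ne',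
      Real.log_mul hX0.ne' hX0.ne', Real.log_mul (by positivity) (by positivity),
      Real.log_mul p2.ne' p3.ne', Real.log_mul hY0.ne' hY0.ne', hX, hY, Real.log_pow, Real.log_pow]
    linarith
  have hle : (1 + α) * (1 - β) * (X * X) ≤ (1 - α) * (1 + β) * (Y * Y) :=
    (Real.log_le_log_iff (by positivity) (by positivity)).1 hlog
  have hm1 : 0 ≤ (1 + (α - β) / 2) * X := by
    apply mul_nonneg _ hX0.le
    linarith
  have hm2 : 0 ≤ (1 - (α - β) / 2) * Y := by
    apply mul_nonneg _ hY0.le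
    linarith
  rw [← pow_le_pow_iff_left₀ hm1 hm2 (two_ne_zero)]
  have hXY2 : X * X ≤ Y * Y := mul_le_mul hXY hXY hX0.le hY0.le
  nlinarith [mul_nonneg (sq_nonneg ((α + β) / 2)) (sub_nonneg.2 hXY2)]

end Vale.Agent.P047
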