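import Vale.Agent.P047.Biased
import Vale.Agent.P047.Ode
import Vale.Agent.P047.Interp
import Vale.Agent.P047.Numeric
import Vale.Agent.Results.P047.EvenDegree

/-! Assembly: the level-one sum of a Boolean function of degree `d ≥ 3` is at most `39 d / 40`. -/

namespace Vale.Agent.P047

open Polynomial Finset
open Vale.Agent.Results.P047.EvenDegree (gpoly eval_gpoly gpoly_natDegree gpoly_eval_zero pfun
  pfun_eq pfun_abs_le)

variable {n : ℕ}

lemma fhat_eq (f : (Fin n → Bool) → ℝ) (S : Finset (Fin n)) :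
    Vale.Agent.Results.P047.EvenDegree.fhat f S = Vale.Agent.P311.fhat f S := rfl

/-- the bias polynomial -/
noncomputable def Qpoly (f : (Fin n → Bool) → ℝ) : ℝ[X] :=
  ∑ S : Finset (Fin n), C (Vale.Agent.P311.fhat f S) * X ^ S.card

lemma Qpoly_eval (f : (Fin n → Bool) → ℝ) (t : ℝ) : (Qpoly f).eval t = cf f t ∅ := by
  rw [cf_empty, Qpoly, eval_finsetSum]
  refine Finset.sum_congr rfl (fun S _ => ?_)
  simp
  ring

lemma Qpoly_eval' (f : (Fin n → Bool) → ℝ) (t : ℝ) : (Qpoly f).eval t = pfun f t := by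
  rw [Qpoly_eval, cf_empty, pfun_eq]
  rfl

lemma Qpoly_deriv (f : (Fin n → Bool) → ℝ) (t : ℝ) :
    (derivative (Qpoly f)).eval t = ∑ i, cf f t {i} := by
  rw [sum_cf_singleton, Qpoly, derivative_sum, eval_finsetSum]
  refine Finset.sum_congr rfl (fun S _ => ?_)
  rw [derivative_C_mul, derivative_X_pow]
  simp only [eval_mul, eval_C, eval_pow, eval_X]
  ring

lemma Qpoly_ineq (f : (Fin n → Bool) → ℝ) (hf : ∀ x, f x = 1 ∨ f x = -1) (d : ℕ)
    (hdeg : ∀ S : Finset (Fin n), d < S.card → Vale.Agent.P311.fhat f S = 0) (t : ℝ)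
    (ht : |t| < 1) :
    (1 - t ^ 2) * |(derivative (Qpoly f)).eval t| ≤ d * (1 - ((Qpoly f).eval t) ^ 2) := by
  rw [Qpoly_deriv, Qpoly_eval]
  exact influence_ineq f hf d hdeg t ht.le

lemma Qpoly_lt (f : (Fin n → Bool) → ℝ) (hf : ∀ x, f x = 1 ∨ f x = -1)
    (h1 : ∃ x, f x = 1) (h2 : ∃ x, f x = -1) (t : ℝ) (ht : |t| < 1) :
    |(Qpoly f).eval t| < 1 := by
  have h2n : (0 : ℝ) < 2 ^ n := by positivity
  have hm := mean_b t (cf f t)
  have e1 : ∀ x : Fin n → Bool, ∑ S, cf f t S * phi t S x = f x := fun x => (expand_b f t x).symm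
  simp only [e1] at hm
  have hw := sum_wt (n := n) t
  rw [Qpoly_eval, abs_lt]
  constructor
  · obtain ⟨x0, hx0⟩ := h1
    have : 0 < ∑ x, wt t x * (1 + f x) := by
      apply Finset.sum_pos'
      · intro x _
        apply mul_nonneg (wt_nonneg t ht.le x)
        rcases hf x with h | h <;> rw [h] <;> norm_num
      · refine ⟨x0, Finset.mem_univ _, ?_⟩
        rw [hx0]
        exact mul_pos (wt_pos t ht x0) (by norm_num)
    simp only [mul_add, mul_one, Finset.sum_add_distrib] at this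
    rw [hm, hw] at this
    nlinarith
  · obtain ⟨x0, hx0⟩ := h2
    have : 0 < ∑ x, wt t x * (1 - f x) := by
      apply Finset.sum_pos'
      · intro x _
        apply mul_nonneg (wt_nonneg t ht.le x)
        rcases hf x with h | h <;> rw [h] <;> norm_num
      · refine ⟨x0, Finset.mem_univ _, ?_⟩
        rw [hx0]
        exact mul_pos (wt_pos t ht x0) (by norm_num)
    simp only [mul_sub, mul_one, Finset.sum_sub_distrib] at this
    rw [hm, hw] at this
    nlinarith

/-- the odd part of the bias function at the first node is bounded away from `±1` -/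
lemma odd_part_bound (f : (Fin n → Bool) → ℝ) (hf : ∀ x, f x = 1 ∨ f x = -1)
    (h1 : ∃ x, f x = 1) (h2 : ∃ x, f x = -1) (d : ℕ) (hd : 3 ≤ d)
    (hdeg : ∀ S : Finset (Fin n), d < S.card → Vale.Agent.P311.fhat f S = 0) :
    160 / 1681 ≤ 1 - ((pfun f (Real.sin (Real.pi / (2 * d)))
      - pfun f (-Real.sin (Real.pi / (2 * d)))) / 2) ^ 2 := by
  have hd' : (3 : ℝ) ≤ d := by exact_mod_cast hd
  have hpi1 := Real.pi_gt_d4
  have hpi2 := Real.pi_lt_d4
  have hr := ratio_bound d hd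
  set φ : ℝ := Real.pi / (2 * d) with hφ
  have hφ0 : 0 < φ := by positivity
  have hφd : 2 * d * φ = Real.pi := by
    rw [hφ]; field_simp
  have hφ6 : φ ≤ 0.5236 := by
    have : 6 * φ ≤ 2 * d * φ := by nlinarith
    linarith
  set s := Real.sin φ with hs
  have hs0 : 0 ≤ s := (Real.sin_pos_of_pos_of_lt_pi hφ0 (by linarith)).le
  have hs1 : s < 1 := by
    have := Real.sin_le hφ0.le
    linarith
  have a1 := ode_alg (Qpoly f) d (Qpoly_lt f hf h1 h2) (Qpoly_ineq f hf d hdeg) s hs0 hs1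
  have a2 := ode_alg (-(Qpoly f)) d
    (fun t ht => by rw [eval_neg, abs_neg]; exact Qpoly_lt f hf h1 h2 t ht)
    (fun t ht => by
      rw [derivative_neg, eval_neg, eval_neg, abs_neg, neg_sq]
      exact Qpoly_ineq f hf d hdeg t ht) s hs0 hs1
  simp only [eval_neg, Qpoly_eval'] at a1 a2
  set m := (pfun f s - pfun f (-s)) / 2 with hm
  have e2 : (-pfun f s - -pfun f (-s)) / 2 = -m := by rw [hm]; ring
  rw [e2] at a2
  have hX : 0 < (1 - s) ^ d := pow_pos (by linarith) d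
  have hb1 : |pfun f s| ≤ 1 := pfun_abs_le f (fun x => by
    rcases hf x with h | h <;> rw [h] <;> simp) s (by rw [abs_of_nonneg hs0]; exact hs1.le)
  have hb2 : |pfun f (-s)| ≤ 1 := pfun_abs_le f (fun x => by
    rcases hf x with h | h <;> rw [h] <;> simp) (-s) (by rw [abs_neg, abs_of_nonneg hs0]; exact hs1.le)
  have hm1 : -1 ≤ m ∧ m ≤ 1 := by
    have := abs_le.1 hb1
    have := abs_le.1 hb2
    rw [hm]
    constructor <;> linarith
  have c1 : 1 + m ≤ 40 * (1 - m) := by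
    have : (1 + m) * (1 - s) ^ d ≤ (40 * (1 - m)) * (1 - s) ^ d := by
      calc (1 + m) * (1 - s) ^ d ≤ (1 - m) * (1 + s) ^ d := a1
        _ ≤ (1 - m) * (40 * (1 - s) ^ d) := mul_le_mul_of_nonneg_left hr (by linarith [hm1.2])
        _ = (40 * (1 - m)) * (1 - s) ^ d := by ring
    exact le_of_mul_le_mul_right this hX
  have c2 : 1 - m ≤ 40 * (1 + m) := by
    have : (1 + -m) * (1 - s) ^ d ≤ (40 * (1 + m)) * (1 - s) ^ d := by
      calc (1 + -m) * (1 - s) ^ d ≤ (1 - -m) * (1 + s) ^ d := a2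
        _ ≤ (1 - -m) * (40 * (1 - s) ^ d) := mul_le_mul_of_nonneg_left hr (by linarith [hm1.1])
        _ = (40 * (1 + m)) * (1 - s) ^ d := by ring
    have := le_of_mul_le_mul_right this hX
    linarith
  have d1 : m ≤ 39 / 41 := by linarith
  have d2 : -(39 / 41) ≤ m := by linarith
  nlinarith

theorem core (d : ℕ) (hd : 3 ≤ d) (f : (Fin n → Bool) → ℝ) (hf : ∀ x, f x = 1 ∨ f x = -1)
    (h1 : ∃ x, f x = 1) (h2 : ∃ x, f x = -1)
    (hdeg : ∀ S : Finset (Fin n), d < S.card →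
      Vale.Agent.Results.P047.EvenDegree.fhat f S = 0) :
    ∑ i, Vale.Agent.Results.P047.EvenDegree.fhat f {i} ≤ (39 / 40) * d := by
  have hfb : ∀ x, |f x| ≤ 1 := fun x => by
    rcases hf x with h | h <;> rw [h] <;> simp
  obtain ⟨k, hk1, hk2⟩ : ∃ k, 2 * k + 1 ≤ d ∧ d ≤ 2 * k + 2 := ⟨(d - 1) / 2, by omega, by omega⟩
  set g := gpoly f with hg
  have hgdeg : g.natDegree ≤ k := gpoly_natDegree f k (fun S hS => hdeg S (by omega))
  set e : ℝ[X] := X * g ^ 2 with he
  have hedeg : e.natDegree ≤ 2 * k + 1 := by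
    refine natDegree_mul_le.trans ?_
    have h1 : (g ^ 2).natDegree ≤ 2 * g.natDegree := natDegree_pow_le
    have h2 : (X : ℝ[X]).natDegree ≤ 1 := natDegree_X_le
    omega
  set l : ℝ[X] := C (1 / 2) * (1 - X) with hl
  have hldeg : l.natDegree ≤ 1 := by
    refine (natDegree_C_mul_le _ _).trans ?_
    refine (natDegree_sub_le _ _).trans ?_
    simp
  set P : ℝ[X] := 1 - C 2 * e.comp l with hP
  have hPdeg : P.degree ≤ (d : WithBot ℕ) := by
    refine degree_le_of_natDegree_le ?_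
    refine (natDegree_sub_le _ _).trans ?_
    rw [natDegree_one, Nat.zero_max]
    refine (natDegree_C_mul_le _ _).trans ?_
    refine natDegree_comp_le.trans ?_
    calc e.natDegree * l.natDegree ≤ (2 * k + 1) * 1 := Nat.mul_le_mul hedeg hldeg
      _ ≤ d := by omega
  have hesq : ∀ r : ℝ, e.eval (r ^ 2) = ((pfun f r - pfun f (-r)) / 2) ^ 2 := by
    intro r
    rw [← eval_gpoly, he, mul_pow, hg]
    simp
  have heval : ∀ u : ℝ, 0 ≤ u → u ≤ 1 → 0 ≤ e.eval u ∧ e.eval u ≤ 1 := by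
    intro u hu0 hu1
    have hs0 : 0 ≤ Real.sqrt u := Real.sqrt_nonneg u
    have hs1 : Real.sqrt u ≤ 1 := Real.sqrt_le_one.2 hu1
    have h1 : e.eval u = ((pfun f (Real.sqrt u) - pfun f (-Real.sqrt u)) / 2) ^ 2 := by
      rw [← hesq, Real.sq_sqrt hu0]
    have hq : |(pfun f (Real.sqrt u) - pfun f (-Real.sqrt u)) / 2| ≤ 1 := by
      have a1 := pfun_abs_le f hfb (Real.sqrt u) (by rw [abs_of_nonneg hs0]; exact hs1)
      have a2 := pfun_abs_le f hfb (-Real.sqrt u) (by rw [abs_neg, abs_of_nonneg hs0]; exact hs1)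
      rw [abs_le] at a1 a2 ⊢
      constructor <;> linarith [a1.1, a1.2, a2.1, a2.2]
    rw [h1]
    refine ⟨sq_nonneg _, ?_⟩
    rw [← sq_abs]
    exact pow_le_one₀ (abs_nonneg _) hq
  have hPev : ∀ y : ℝ, P.eval y = 1 - 2 * e.eval (1 / 2 * (1 - y)) := by
    intro y
    simp [hP, hl, eval_comp]
  have hPbnd : ∀ y ∈ Set.Icc (-1 : ℝ) 1, |P.eval y| ≤ 1 := by
    intro y hy
    obtain ⟨h2, h3⟩ := heval (1 / 2 * (1 - y)) (by linarith [hy.2]) (by linarith [hy.1])
    rw [hPev, abs_le]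
    constructor <;> linarith
  have hmk := markov_refined d (by omega) P hPdeg hPbnd
  have hPd : (derivative P).eval 1 = (g.eval 0) ^ 2 := by
    rw [hP, he, hl]
    simp [eval_comp]
  -- the node
  have hd' : (3 : ℝ) ≤ d := by exact_mod_cast hd
  have hpi1 := Real.pi_gt_d4
  have hpi2 := Real.pi_lt_d4
  have hob := odd_part_bound f hf h1 h2 d hd hdeg
  set φ : ℝ := Real.pi / (2 * d) with hφ
  have hφ0 : 0 < φ := by positivity
  have hφd : 2 * d * φ = Real.pi := by
    rw [hφ]; field_simp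
  set s := Real.sin φ with hs
  have hs0 : 0 < s := by
    apply Real.sin_pos_of_pos_of_lt_pi hφ0
    have : 6 * φ ≤ 2 * d * φ := by nlinarith
    linarith
  have hsφ : s ≤ φ := Real.sin_le hφ0.le
  have hnode : Polynomial.Chebyshev.node d 1 = 1 - 2 * s ^ 2 := by
    unfold Polynomial.Chebyshev.node
    have : ((1 : ℕ) : ℝ) * Real.pi / d = 2 * φ := by
      rw [hφ, Nat.cast_one]; field_simp
    rw [this, Real.cos_two_mul, hs]
    have := Real.sin_sq_add_cos_sq φ
    linarith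
  rw [hPd, hnode, hPev] at hmk
  have e1 : (1 : ℝ) / 2 * (1 - (1 - 2 * s ^ 2)) = s ^ 2 := by ring
  rw [e1, hesq, hg, gpoly_eval_zero] at hmk
  set m := (pfun f s - pfun f (-s)) / 2 with hm
  set a := ∑ i, Vale.Agent.Results.P047.EvenDegree.fhat f {i} with ha
  have e2 : (4 : ℝ) / 3 / (1 - (1 - 2 * s ^ 2)) * (1 + (1 - 2 * m ^ 2))
      = (4 / 3) * (1 - m ^ 2) / s ^ 2 := by
    field_simp
    ring
  rw [e2] at hmk
  have hs2 : 0 < s ^ 2 := by positivity
  have hds : (d * s) ^ 2 ≤ 2.4675 := by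
    have h3 : 0 ≤ d * s := by positivity
    have h4 : d * s ≤ Real.pi / 2 := by
      have : d * s ≤ d * φ := mul_le_mul_of_nonneg_left hsφ (by positivity)
      linarith
    nlinarith
  have hlow : 0.05 * (d : ℝ) ^ 2 ≤ (4 / 3) * (1 - m ^ 2) / s ^ 2 := by
    rw [le_div_iff₀ hs2]
    nlinarith
  have hfin : a ^ 2 ≤ 0.95 * (d : ℝ) ^ 2 := by linarith
  by_contra hcon
  push Not at hcon
  have hd0 : (0 : ℝ) < d := by linarith
  nlinarith

end Vale.Agent.P047
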