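import Vale.Agent.P311.Fourier

/-! The odd symmetrisation `s f(s x)` of a function on the cube. -/

namespace Vale.Agent.P047

open Finset Vale.Agent.P311

variable {n : ℕ}

/-- real sign of a Boolean -/
def sb (b : Bool) : ℝ := if b then -1 else 1

/-- `h(s, x) = s f(s x)` -/
def symz (f : (Fin n → Bool) → ℝ) : (Fin (n + 1) → Bool) → ℝ :=
  fun z => sb (z 0) * f (fun i => xor (z 0) (z i.succ))

/-- the part of a coordinate set outside the new coordinate -/
def tl (U : Finset (Fin (n + 1))) : Finset (Fin n) := univ.filter (fun i => i.succ ∈ U)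

lemma chi_cons (U : Finset (Fin (n + 1))) (b : Bool) (x : Fin n → Bool) :
    chi U (Fin.cons b x : Fin (n + 1) → Bool) = (if (0 : Fin (n + 1)) ∈ U then sb b else 1) * chi (tl U) x := by
  rw [chi_eq_prod_univ, Fin.prod_univ_succ, chi_eq_prod_univ]
  congr 1
  refine Finset.prod_congr rfl (fun i _ => ?_)
  by_cases h : i.succ ∈ U
  · have h' : i ∈ tl U := by simp [tl, h]
    rw [if_pos h, if_pos h']
    simp [sg]
  · have h' : i ∉ tl U := by simp [tl, h]
    rw [if_neg h, if_neg h']

lemma chi_xor (V : Finset (Fin n)) (b : Bool) (y : Fin n → Bool) :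
    chi V (fun i => xor b (y i)) = sb b ^ V.card * chi V y := by
  unfold chi
  rw [← Finset.prod_const, ← Finset.prod_mul_distrib]
  refine Finset.prod_congr rfl (fun i _ => ?_)
  unfold sg sb
  cases b <;> cases h : y i <;> simp [h]

lemma card_tl (U : Finset (Fin (n + 1))) :
    U.card = (if (0 : Fin (n + 1)) ∈ U then 1 else 0) + (tl U).card := by
  have h1 : U.card = ∑ p : Fin (n + 1), if p ∈ U then 1 else 0 := by
    rw [Finset.sum_boole]
    simp
  rw [h1, Fin.sum_univ_succ, Finset.sum_boole]
  simp [tl]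

def xorEquiv (b : Bool) : (Fin n → Bool) ≃ (Fin n → Bool) where
  toFun x := fun i => xor b (x i)
  invFun x := fun i => xor b (x i)
  left_inv x := by funext i; simp
  right_inv x := by funext i; simp

lemma sum_symz (f : (Fin n → Bool) → ℝ) (U : Finset (Fin (n + 1))) :
    ∑ z, symz f z * chi U z
      = (if Odd U.card then 2 else 0) * ∑ y, f y * chi (tl U) y := by
  rw [← Equiv.sum_comp (Fin.consEquiv (fun _ : Fin (n + 1) => Bool)), Fintype.sum_prod_type]
  have h1 : ∀ b : Bool, ∑ x : Fin n → Bool,
      symz f (Fin.consEquiv (fun _ : Fin (n + 1) => Bool) (b, x))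
        * chi U (Fin.consEquiv (fun _ : Fin (n + 1) => Bool) (b, x))
      = (sb b * (if (0 : Fin (n + 1)) ∈ U then sb b else 1) * sb b ^ (tl U).card)
        * ∑ y, f y * chi (tl U) y := by
    intro b
    rw [Finset.mul_sum, ← Equiv.sum_comp (xorEquiv (n := n) b)]
    refine Finset.sum_congr rfl (fun x _ => ?_)
    have e1 : (Fin.consEquiv (fun _ : Fin (n + 1) => Bool) (b, xorEquiv b x))
        = Fin.cons b (xorEquiv b x) := rfl
    rw [e1, chi_cons]
    have e2 : symz f (Fin.cons b (xorEquiv b x) : Fin (n + 1) → Bool) = sb b * f x := by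
      have : (fun i => xor b (xorEquiv b x i)) = x := by
        funext i
        simp [xorEquiv]
      simp only [symz, Fin.cons_zero, Fin.cons_succ]
      rw [this]
    have e3 : chi (tl U) (xorEquiv b x) = sb b ^ (tl U).card * chi (tl U) x := chi_xor _ b x
    rw [e2, e3]
    ring
  simp only [h1]
  rw [← Finset.sum_mul]
  congr 1
  rw [Fintype.sum_bool]
  have hc := card_tl U
  simp only [sb, if_true, Bool.false_eq_true, if_false, one_pow, mul_one]
  by_cases h0 : (0 : Fin (n + 1)) ∈ U
  · simp only [h0, if_true] at hc ⊢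
    by_cases hodd : Odd U.card
    · have he : Even (tl U).card := by
        rw [hc] at hodd
        rcases Nat.even_or_odd (tl U).card with h | h
        · exact h
        · exfalso
          have : Even (1 + (tl U).card) := by
            rw [add_comm]; exact h.add_one
          exact (Nat.not_even_iff_odd.mpr hodd) this
      rw [if_pos hodd, he.neg_one_pow]
      norm_num
    · have ho : Odd (tl U).card := by
        rw [hc] at hodd
        rcases Nat.even_or_odd (tl U).card with h | h
        · exfalso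
          exact hodd (by rw [add_comm]; exact h.add_one)
        · exact h
      rw [if_neg hodd, ho.neg_one_pow]
      norm_num
  · simp only [h0, if_false, zero_add] at hc ⊢
    by_cases hodd : Odd U.card
    · rw [if_pos hodd, ← hc, hodd.neg_one_pow]
      norm_num
    · rw [if_neg hodd, ← hc, (Nat.not_odd_iff_even.mp hodd).neg_one_pow]
      norm_num

lemma fhat_symz (f : (Fin n → Bool) → ℝ) (U : Finset (Fin (n + 1))) :
    fhat (symz f) U = if Odd U.card then fhat f (tl U) else 0 := by
  unfold fhat
  rw [sum_symz]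
  split_ifs
  · rw [pow_succ]
    field_simp
  · simp

lemma symz_boolean (f : (Fin n → Bool) → ℝ) (hf : ∀ x, f x = 1 ∨ f x = -1)
    (z : Fin (n + 1) → Bool) : symz f z = 1 ∨ symz f z = -1 := by
  unfold symz sb
  rcases hf (fun i => xor (z 0) (z i.succ)) with h | h <;> rw [h] <;> cases z 0 <;> simp

lemma symz_balanced (f : (Fin n → Bool) → ℝ) : fhat (symz f) ∅ = 0 := by
  rw [fhat_symz, if_neg (by simp)]

lemma symz_degree (f : (Fin n → Bool) → ℝ) (d : ℕ)
    (hdeg : ∀ S : Finset (Fin n), d < S.card → fhat f S = 0) (U : Finset (Fin (n + 1)))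
    (hU : (if Odd d then d else d + 1) < U.card) : fhat (symz f) U = 0 := by
  rw [fhat_symz]
  split_ifs with hodd
  · apply hdeg
    have hc := card_tl U
    have h01 : (if (0 : Fin (n + 1)) ∈ U then 1 else 0) ≤ 1 := by split_ifs <;> omega
    by_cases hd : Odd d
    · rw [if_pos hd] at hU
      obtain ⟨a, ha⟩ := hd
      obtain ⟨b, hb⟩ := hodd
      omega
    · rw [if_neg hd] at hU
      omega
  · rfl

lemma tl_zero : tl ({0} : Finset (Fin (n + 1))) = ∅ := by
  ext i
  simp [tl, Fin.succ_ne_zero]

lemma tl_succ (i : Fin n) : tl ({i.succ} : Finset (Fin (n + 1))) = {i} := by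
  ext j
  simp [tl]

lemma symz_level_one (f : (Fin n → Bool) → ℝ) :
    ∑ p, fhat (symz f) {p} = fhat f ∅ + ∑ i, fhat f {i} := by
  rw [Fin.sum_univ_succ]
  congr 1
  · rw [fhat_symz, if_pos (by simp), tl_zero]
  · refine Finset.sum_congr rfl (fun i _ => ?_)
    rw [fhat_symz, if_pos (by simp), tl_succ]

lemma fhat_flp (F : (Fin n → Bool) → ℝ) (i : Fin n) (S : Finset (Fin n)) :
    fhat (fun x => F (flp i x)) S = if i ∈ S then - fhat F S else fhat F S := by
  unfold fhat
  have h1 : ∑ x, F (flp i x) * chi S x = ∑ x, F x * chi S (flp i x) := by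
    rw [← sum_flp i (fun x => F x * chi S (flp i x))]
    refine Finset.sum_congr rfl (fun x _ => ?_)
    rw [flp_flp]
  rw [h1]
  split_ifs with h
  · rw [← neg_div, ← Finset.sum_neg_distrib]
    congr 1
    refine Finset.sum_congr rfl (fun x _ => ?_)
    rw [chi_flp, if_pos h]
    ring
  · congr 1
    refine Finset.sum_congr rfl (fun x _ => ?_)
    rw [chi_flp, if_neg h]

/-- the other symmetrisation `-s f(-s x)` -/
def symz' (f : (Fin n → Bool) → ℝ) : (Fin (n + 1) → Bool) → ℝ :=
  fun z => symz f (flp 0 z)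

lemma symz'_boolean (f : (Fin n → Bool) → ℝ) (hf : ∀ x, f x = 1 ∨ f x = -1)
    (z : Fin (n + 1) → Bool) : symz' f z = 1 ∨ symz' f z = -1 := symz_boolean f hf _

lemma symz'_balanced (f : (Fin n → Bool) → ℝ) : fhat (symz' f) ∅ = 0 := by
  unfold symz'
  rw [fhat_flp, if_neg (by simp), symz_balanced]

lemma symz'_degree (f : (Fin n → Bool) → ℝ) (d : ℕ)
    (hdeg : ∀ S : Finset (Fin n), d < S.card → fhat f S = 0) (U : Finset (Fin (n + 1)))
    (hU : (if Odd d then d else d + 1) < U.card) : fhat (symz' f) U = 0 := by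
  unfold symz'
  rw [fhat_flp, symz_degree f d hdeg U hU]
  simp

lemma symz'_level_one (f : (Fin n → Bool) → ℝ) :
    ∑ p, fhat (symz' f) {p} = - fhat f ∅ + ∑ i, fhat f {i} := by
  unfold symz'
  rw [Fin.sum_univ_succ]
  congr 1
  · rw [fhat_flp, if_pos (by simp), fhat_symz, if_pos (by simp), tl_zero]
  · refine Finset.sum_congr rfl (fun i _ => ?_)
    rw [fhat_flp, if_neg (by simp [Fin.succ_ne_zero, eq_comm]), fhat_symz, if_pos (by simp),
      tl_succ]

end Vale.Agent.P047
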