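import Vale.Agent.P311.Fourier

/-! Composition of Boolean functions and its effect on the Fourier expansion. -/

namespace Vale.Agent.P047

open Finset Vale.Agent.P311

variable {n m : ℕ}

/-- the `i`-th block of a point of the cube of dimension `n * m` -/
def blk (x : Fin (n * m) → Bool) (i : Fin n) : Fin m → Bool :=
  fun j => x (finProdFinEquiv (i, j))

/-- the `i`-th slice of a set of coordinates -/
def sl (U : Finset (Fin (n * m))) (i : Fin n) : Finset (Fin m) :=
  univ.filter (fun j => finProdFinEquiv (i, j) ∈ U)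

/-- the Boolean value coded by a real sign -/
noncomputable def tb (r : ℝ) : Bool := decide (r < 0)

/-- composition `f(g(x^1), ..., g(x^n))` -/
noncomputable def comp (f : (Fin n → Bool) → ℝ) (g : (Fin m → Bool) → ℝ) :
    (Fin (n * m) → Bool) → ℝ :=
  fun x => f (fun i => tb (g (blk x i)))

/-- the blocks identify the big cube with a power of the small cube -/
def blkEquiv : (Fin (n * m) → Bool) ≃ (Fin n → Fin m → Bool) :=
  (Equiv.arrowCongr (finProdFinEquiv (m := n) (n := m)).symm (Equiv.refl Bool)).trans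
    (Equiv.curry (Fin n) (Fin m) Bool)

lemma blkEquiv_apply (x : Fin (n * m) → Bool) : blkEquiv x = blk x := by
  funext i j
  simp [blkEquiv, blk, Equiv.arrowCongr, Function.curry]

lemma chi_blk (U : Finset (Fin (n * m))) (x : Fin (n * m) → Bool) :
    chi U x = ∏ i, chi (sl U i) (blk x i) := by
  rw [chi_eq_prod_univ, ← Equiv.prod_comp (finProdFinEquiv (m := n) (n := m)),
    Fintype.prod_prod_type]
  refine Finset.prod_congr rfl (fun i _ => ?_)
  rw [chi_eq_prod_univ]
  refine Finset.prod_congr rfl (fun j _ => ?_)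
  by_cases h : finProdFinEquiv (i, j) ∈ U
  · have h' : j ∈ sl U i := by simp [sl, h]
    rw [if_pos h, if_pos h']
    rfl
  · have h' : j ∉ sl U i := by simp [sl, h]
    rw [if_neg h, if_neg h']

lemma sg_tb (r : ℝ) (hr : r = 1 ∨ r = -1) : (if tb r then (-1 : ℝ) else 1) = r := by
  rcases hr with h | h <;> subst h <;> simp [tb]

lemma sum_pi (F : Fin n → (Fin m → Bool) → ℝ) :
    ∑ X : Fin n → Fin m → Bool, ∏ i, F i (X i) = ∏ i, ∑ z, F i z := by
  have h := Finset.prod_univ_sum (fun _ : Fin n => (univ : Finset (Fin m → Bool))) F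
  rw [Fintype.piFinset_univ] at h
  exact h.symm

lemma sum_comp (f : (Fin n → Bool) → ℝ) (g : (Fin m → Bool) → ℝ)
    (hg : ∀ z, g z = 1 ∨ g z = -1) (U : Finset (Fin (n * m))) :
    ∑ x, comp f g x * chi U x
      = ∑ S, fhat f S * ∏ i, ∑ z, (if i ∈ S then g z else 1) * chi (sl U i) z := by
  have h1 : ∀ x : Fin (n * m) → Bool, comp f g x * chi U x
      = ∑ S, fhat f S * ∏ i, ((if i ∈ S then g (blk x i) else 1) * chi (sl U i) (blk x i)) := by
    intro x
    unfold comp
    rw [inversion f, chi_blk, Finset.sum_mul]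
    refine Finset.sum_congr rfl (fun S _ => ?_)
    rw [mul_assoc, chi_eq_prod_univ, ← Finset.prod_mul_distrib]
    congr 1
    refine Finset.prod_congr rfl (fun i _ => ?_)
    congr 1
    split_ifs
    · exact sg_tb _ (hg _)
    · rfl
  simp only [h1]
  rw [Finset.sum_comm]
  refine Finset.sum_congr rfl (fun S _ => ?_)
  rw [← Finset.mul_sum]
  congr 1
  rw [← sum_pi, ← Equiv.sum_comp (blkEquiv (n := n) (m := m))]
  refine Finset.sum_congr rfl (fun x _ => ?_)
  rw [blkEquiv_apply]

lemma inner_in (g : (Fin m → Bool) → ℝ) (V : Finset (Fin m)) :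
    ∑ z, g z * chi V z = 2 ^ m * fhat g V := by
  unfold fhat
  field_simp

lemma inner_out (V : Finset (Fin m)) :
    ∑ z : Fin m → Bool, (1 : ℝ) * chi V z = if V = ∅ then (2 : ℝ) ^ m else 0 := by
  simp only [one_mul]
  exact sum_chi V

/-- the `i`-th factor in `sum_comp` -/
lemma factor_eq (g : (Fin m → Bool) → ℝ) (S : Finset (Fin n)) (i : Fin n) (V : Finset (Fin m)) :
    ∑ z, (if i ∈ S then g z else 1) * chi V z
      = if i ∈ S then 2 ^ m * fhat g V else (if V = ∅ then (2 : ℝ) ^ m else 0) := by
  split_ifs with h1 h2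
  · exact inner_in g V
  · rw [inner_out, if_pos h2]
  · rw [inner_out, if_neg h2]

lemma card_sl (U : Finset (Fin (n * m))) : U.card = ∑ i, (sl U i).card := by
  have h1 : U.card = ∑ p : Fin (n * m), if p ∈ U then 1 else 0 := by
    rw [Finset.sum_boole]
    simp
  rw [h1, ← Equiv.sum_comp (finProdFinEquiv (m := n) (n := m)), Fintype.sum_prod_type]
  refine Finset.sum_congr rfl (fun i _ => ?_)
  rw [Finset.sum_boole]
  simp [sl]

lemma comp_degree (f : (Fin n → Bool) → ℝ) (g : (Fin m → Bool) → ℝ)
    (hg : ∀ z, g z = 1 ∨ g z = -1) (df dg : ℕ)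
    (hdf : ∀ S : Finset (Fin n), df < S.card → fhat f S = 0)
    (hdg : ∀ V : Finset (Fin m), dg < V.card → fhat g V = 0)
    (U : Finset (Fin (n * m))) (hU : df * dg < U.card) : fhat (comp f g) U = 0 := by
  unfold fhat
  rw [sum_comp f g hg U, Finset.sum_eq_zero, zero_div]
  intro S _
  by_cases hS : df < S.card
  · rw [hdf S hS, zero_mul]
  · push Not at hS
    have hex : ∃ i, ∑ z, (if i ∈ S then g z else 1) * chi (sl U i) z = 0 := by
      by_contra hcon
      push Not at hcon
      have hb : ∀ i, (sl U i).card ≤ if i ∈ S then dg else 0 := by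
        intro i
        have hi := hcon i
        rw [factor_eq] at hi
        split_ifs at hi ⊢ with h1 h2
        · by_contra hlt
          push Not at hlt
          exact hi (by rw [hdg _ hlt, mul_zero])
        · rw [h2]; simp
        · exact absurd rfl hi
      have hsum : U.card ≤ S.card * dg := by
        rw [card_sl U]
        calc ∑ i, (sl U i).card ≤ ∑ i, (if i ∈ S then dg else 0) :=
              Finset.sum_le_sum (fun i _ => hb i)
          _ = S.card * dg := by
              rw [Finset.sum_ite_mem, Finset.univ_inter, Finset.sum_const, smul_eq_mul]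
      have : S.card * dg ≤ df * dg := Nat.mul_le_mul_right _ hS
      omega
    obtain ⟨i, hi⟩ := hex
    rw [Finset.prod_eq_zero (Finset.mem_univ i) hi, mul_zero]

lemma sl_empty (i : Fin n) : sl (∅ : Finset (Fin (n * m))) i = ∅ := by
  simp [sl]

lemma comp_balanced (f : (Fin n → Bool) → ℝ) (g : (Fin m → Bool) → ℝ)
    (hg : ∀ z, g z = 1 ∨ g z = -1) (hf0 : fhat f ∅ = 0) (hg0 : fhat g ∅ = 0) :
    fhat (comp f g) ∅ = 0 := by
  have hf0' := hf0
  unfold fhat
  rw [sum_comp f g hg ∅, Finset.sum_eq_zero, zero_div]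
  intro S _
  by_cases hS : S = ∅
  · rw [hS, hf0', zero_mul]
  · obtain ⟨i, hi⟩ := Finset.nonempty_iff_ne_empty.mpr hS
    have : ∑ z, (if i ∈ S then g z else 1) * chi (sl (∅ : Finset (Fin (n * m))) i) z = 0 := by
      rw [factor_eq, if_pos hi, sl_empty, hg0, mul_zero]
    rw [Finset.prod_eq_zero (Finset.mem_univ i) this, mul_zero]

lemma sl_singleton (i0 i : Fin n) (j0 : Fin m) :
    sl ({finProdFinEquiv (i0, j0)} : Finset (Fin (n * m))) i = if i = i0 then {j0} else ∅ := by
  ext j
  simp only [sl, Finset.mem_filter, Finset.mem_univ, true_and, Finset.mem_singleton,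
    EmbeddingLike.apply_eq_iff_eq, Prod.mk.injEq]
  split_ifs with h
  · simp [h]
  · simp [h]

lemma comp_singleton (f : (Fin n → Bool) → ℝ) (g : (Fin m → Bool) → ℝ)
    (hg : ∀ z, g z = 1 ∨ g z = -1) (hg0 : fhat g ∅ = 0) (i0 : Fin n) (j0 : Fin m) :
    fhat (comp f g) {finProdFinEquiv (i0, j0)} = fhat f {i0} * fhat g {j0} := by
  have key : ∑ x, comp f g x * chi {finProdFinEquiv (i0, j0)} x
      = fhat f {i0} * ((2 : ℝ) ^ (n * m) * fhat g {j0}) := by
    rw [sum_comp f g hg, Finset.sum_eq_single {i0}]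
    · congr 1
      have h1 : ∀ i : Fin n, ∑ z, (if i ∈ ({i0} : Finset (Fin n)) then g z else 1)
          * chi (sl ({finProdFinEquiv (i0, j0)} : Finset (Fin (n * m))) i) z
          = 2 ^ m * (if i = i0 then fhat g {j0} else 1) := by
        intro i
        rw [factor_eq, sl_singleton]
        by_cases h : i = i0
        · simp [h]
        · simp [h]
      rw [Finset.prod_congr rfl (fun i _ => h1 i), Finset.prod_mul_distrib, Finset.prod_const,
        Finset.card_univ, Fintype.card_fin, Finset.prod_ite_eq' , if_pos (Finset.mem_univ _),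
        ← pow_mul, mul_comm m n]
    · intro S _ hS
      by_cases h0 : i0 ∈ S
      · have : ∃ i1 ∈ S, i1 ≠ i0 := by
          by_contra hcon
          push Not at hcon
          apply hS
          ext i
          simp only [Finset.mem_singleton]
          exact ⟨fun hi => hcon i hi, fun hi => hi ▸ h0⟩
        obtain ⟨i1, hi1, hne⟩ := this
        have : ∑ z, (if i1 ∈ S then g z else 1)
            * chi (sl ({finProdFinEquiv (i0, j0)} : Finset (Fin (n * m))) i1) z = 0 := by
          rw [factor_eq, if_pos hi1, sl_singleton, if_neg hne, hg0, mul_zero]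
        rw [Finset.prod_eq_zero (Finset.mem_univ i1) this, mul_zero]
      · have : ∑ z, (if i0 ∈ S then g z else 1)
            * chi (sl ({finProdFinEquiv (i0, j0)} : Finset (Fin (n * m))) i0) z = 0 := by
          rw [factor_eq, if_neg h0, sl_singleton, if_pos rfl, if_neg (by simp)]
        rw [Finset.prod_eq_zero (Finset.mem_univ i0) this, mul_zero]
    · intro h
      exact absurd (Finset.mem_univ _) h
  show (∑ x, comp f g x * chi {finProdFinEquiv (i0, j0)} x) / 2 ^ (n * m) = _
  rw [key]
  field_simp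

lemma comp_level_one (f : (Fin n → Bool) → ℝ) (g : (Fin m → Bool) → ℝ)
    (hg : ∀ z, g z = 1 ∨ g z = -1) (hg0 : fhat g ∅ = 0) :
    ∑ p, fhat (comp f g) {p} = (∑ i, fhat f {i}) * ∑ j, fhat g {j} := by
  rw [← Equiv.sum_comp (finProdFinEquiv (m := n) (n := m)), Fintype.sum_prod_type,
    Finset.sum_mul_sum]
  refine Finset.sum_congr rfl (fun i _ => Finset.sum_congr rfl (fun j _ => ?_))
  exact comp_singleton f g hg hg0 i j

lemma comp_boolean (f : (Fin n → Bool) → ℝ) (g : (Fin m → Bool) → ℝ)
    (hf : ∀ y, f y = 1 ∨ f y = -1) (x : Fin (n * m) → Bool) :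
    comp f g x = 1 ∨ comp f g x = -1 := hf _

end Vale.Agent.P047
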